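import Mathlib.Analysis.CStarAlgebra.CompletelyPositiveMap
import Mathlib.Analysis.CStarAlgebra.ContinuousLinearMap
import Mathlib.Analysis.InnerProductSpace.l2Space
import Mathlib.Analysis.InnerProductSpace.TensorProduct
import Mathlib.Analysis.Normed.Operator.Compact.Basic
import Mathlib.Topology.Algebra.StarSubalgebra

/-!
# P133: the three notions of pure infiniteness, exactness constants, nuclearity
-/

namespace Vale.Agent.N133

open scoped TensorProduct CStarAlgebra ComplexOrder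
open Filter Topology

universe u v w

/-- The *-homomorphisms from `A` to `B`. -/
abbrev Hom (A : Type u) (B : Type v) [NonUnitalCStarAlgebra A] [NonUnitalCStarAlgebra B] :=
  A →⋆ₙₐ[ℂ] B

/-- The representations of `A` on the Hilbert space `H`. -/
abbrev Rep (A : Type u) (H : Type v) [NonUnitalCStarAlgebra A] [NormedAddCommGroup H]
    [InnerProductSpace ℂ H] [CompleteSpace H] :=
  A →⋆ₙₐ[ℂ] (H →L[ℂ] H)

/-- `K` is *-isomorphic to the algebra of the compact operators on the Hilbert space `H` with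
orthonormal basis `b`, and the `e i j` are the matrix units `x ↦ ⟪b j, x⟫ b i`. -/
def CompactsOn {K H : Type} [NonUnitalCStarAlgebra K] [NormedAddCommGroup H]
    [InnerProductSpace ℂ H] [CompleteSpace H] (b : HilbertBasis ℕ ℂ H) (e : ℕ → ℕ → K) : Prop :=
  ∃ ρ : Rep K H, Function.Injective ρ ∧ (∀ S : H →L[ℂ] H, IsCompactOperator S ↔ ∃ k, ρ k = S) ∧
    ∀ i j x, ρ (e i j) x = inner ℂ (b j) x • b i

/-- `K` is the algebra `𝒦` of the compact operators on a Hilbert space with an orthonormal basis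
indexed by `ℕ`, with matrix units `e i j`. -/
def IsCompacts {K : Type} [NonUnitalCStarAlgebra K] (e : ℕ → ℕ → K) : Prop :=
  ∃ (H : Type) (_ : NormedAddCommGroup H) (_ : InnerProductSpace ℂ H) (_ : CompleteSpace H)
    (b : HilbertBasis ℕ ℂ H), CompactsOn b e

/-- The C*-algebra `B` is, via `T a k = a ⊗ k`, a C*-completion of the algebraic tensor product
`A ⊗ K`: the map `T` is bilinear and induces an injective *-homomorphism `A ⊗ K → B` with dense
range. -/
structure IsTensor {A : Type u} {K : Type v} {B : Type w} [NonUnitalCStarAlgebra A]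
    [NonUnitalCStarAlgebra K] [NonUnitalCStarAlgebra B] (T : A → K → B) : Prop where
  add_left : ∀ a a' k, T (a + a') k = T a k + T a' k
  add_right : ∀ a k k', T a (k + k') = T a k + T a k'
  smul_left : ∀ (c : ℂ) a k, T (c • a) k = c • T a k
  smul_right : ∀ (c : ℂ) a k, T a (c • k) = c • T a k
  mul : ∀ a a' k k', T (a * a') (k * k') = T a k * T a' k'
  star : ∀ a k, T (star a) (star k) = star (T a k)
  inj : ∀ (n : ℕ) (a : Fin n → A) (k : Fin n → K),
    ∑ i, T (a i) (k i) = 0 → ∑ i, a i ⊗ₜ[ℂ] k i = 0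
  dense : ∀ (b : B) (ε : ℝ), 0 < ε →
    ∃ (n : ℕ) (a : Fin n → A) (k : Fin n → K), ‖∑ i, T (a i) (k i) - b‖ < ε

section

variable {C : Type u} {B : Type v} {K : Type} [NonUnitalCStarAlgebra C] [NonUnitalCStarAlgebra B]

/-- Cuntz comparison `x ≾ y` in `B = C ⊗ 𝒦`: there are `r_j ∈ B` with `‖r_j* y r_j - x‖ → 0`. -/
def Cuntz (x y : B) : Prop :=
  ∃ r : ℕ → B, Tendsto (fun j => ‖star (r j) * y * r j - x‖) atTop (𝓝 0)

/-- The element `diag (h, …, h)` (`n` times) of `C ⊗ 𝒦`. -/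
def amp (T : C → K → B) (e : ℕ → ℕ → K) (n : ℕ) (h : C) : B := ∑ i ∈ Finset.range n, T h (e i i)

variable [PartialOrder C]

/-- For every `h ∈ C₊` the element `H = diag (h, …, h)` (`n` times) is properly infinite:
`H ⊕ H ≾ H`. -/
def AmpInf (T : C → K → B) (e : ℕ → ℕ → K) (n : ℕ) : Prop :=
  ∀ h : C, 0 ≤ h → Cuntz (amp T e (n + n) h) (amp T e n h)

/-- `C` is strongly purely infinite. -/
def SPI (C : Type u) [NonUnitalCStarAlgebra C] [PartialOrder C] : Prop :=
  ∀ x y : C, 0 ≤ x → 0 ≤ y → ∀ ε : ℝ, 0 < ε → ∃ s t : C,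
    ‖star s * (x * x) * s - x * x‖ < ε ∧ ‖star t * (y * y) * t - y * y‖ < ε ∧
      ‖star s * (x * y) * t‖ < ε

end

/-- The operator `∑ π (a i) ⊗ σ (b i)` on `H ⊗ L` has norm at most `c`. -/
def RepLE {A H : Type u} {B L ι : Type} [NonUnitalCStarAlgebra A] [NonUnitalCStarAlgebra B]
    [Fintype ι] [NormedAddCommGroup H] [InnerProductSpace ℂ H] [CompleteSpace H]
    [NormedAddCommGroup L] [InnerProductSpace ℂ L] [CompleteSpace L] (π : Rep A H) (σ : Rep B L)
    (a : ι → A) (b : ι → B) (c : ℝ) : Prop :=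
  ∀ (m : ℕ) (x : Fin m → H) (y : Fin m → L),
    ‖∑ i, ∑ p, π (a i) (x p) ⊗ₜ[ℂ] σ (b i) (y p)‖ ≤ c * ‖∑ p, x p ⊗ₜ[ℂ] y p‖

/-- The minimal C*-norm of `∑ a i ⊗ b i` is at most `c`. -/
def MinLE {A : Type u} {B ι : Type} [NonUnitalCStarAlgebra A] [NonUnitalCStarAlgebra B]
    [Fintype ι] (a : ι → A) (b : ι → B) (c : ℝ) : Prop :=
  ∀ (H : Type u) [NormedAddCommGroup H] [InnerProductSpace ℂ H] [CompleteSpace H]
    (L : Type) [NormedAddCommGroup L] [InnerProductSpace ℂ L] [CompleteSpace L]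
    (π : Rep A H) (σ : Rep B L), RepLE π σ a b c

/-- Some element of `A ⊗ ker q` is at distance at most `c` from `∑ a i ⊗ b i` for the minimal
norm. -/
def Near {A : Type u} {B D ι : Type} [NonUnitalCStarAlgebra A] [NonUnitalCStarAlgebra B]
    [NonUnitalCStarAlgebra D] [Fintype ι] (q : Hom B D) (a : ι → A) (b : ι → B) (c : ℝ) :
    Prop :=
  ∃ (m : ℕ) (a' : Fin m → A) (b' : Fin m → B),
    (∀ j, q (b' j) = 0) ∧ MinLE (Sum.elim a a') (Sum.elim b b') c

/-- If `q : B → D` is surjective, the kernel of `id ⊗ q : A ⊗_min B → A ⊗_min D` is the closure of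
`A ⊗ ker q`. An element of `A ⊗_min B` is the limit of a Cauchy sequence `x k = ∑ a k i ⊗ b k i`;
if `(id ⊗ q) (x k) → 0`, then the distance from `x k` to `A ⊗ ker q` tends to `0`. -/
def ExactAt (A : Type u) {B D : Type} [NonUnitalCStarAlgebra A] [NonUnitalCStarAlgebra B]
    [NonUnitalCStarAlgebra D] (q : Hom B D) : Prop :=
  Function.Surjective q → ∀ (n : ℕ → ℕ) (a : ∀ k, Fin (n k) → A) (b : ∀ k, Fin (n k) → B),
    (∀ ε : ℝ, 0 < ε → ∃ N, ∀ k ≥ N, ∀ l ≥ N,
      MinLE (Sum.elim (a k) fun i => -a l i) (Sum.elim (b k) (b l)) ε) →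
    (∀ ε : ℝ, 0 < ε → ∀ᶠ k in atTop, MinLE (a k) (fun i => q (b k i)) ε) →
    ∀ ε : ℝ, 0 < ε → ∀ᶠ k in atTop, Near q (a k) (b k) ε

/-- `A` is exact. -/
def Exact (A : Type u) [NonUnitalCStarAlgebra A] : Prop :=
  ∀ (B D : Type) [NonUnitalCStarAlgebra B] [NonUnitalCStarAlgebra D] (q : Hom B D), ExactAt A q

/-- If `q : B → D` is surjective, the distance for the minimal norm from `∑_{i < d} a i ⊗ b i` to
`A ⊗ ker q` is at most `κ` times the minimal norm of `∑ a i ⊗ q (b i)`. -/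
def ExConstAt (A : Type u) {B D : Type} [NonUnitalCStarAlgebra A] [NonUnitalCStarAlgebra B]
    [NonUnitalCStarAlgebra D] (q : Hom B D) (d : ℕ) (κ : ℝ) : Prop :=
  Function.Surjective q → ∀ (a : Fin d → A) (b : Fin d → B) (c ε : ℝ), 0 ≤ c → 0 < ε →
    MinLE a (fun i => q (b i)) c → Near q a b (κ * c + ε)

/-- The exactness constant of `A` on tensors of rank at most `d` is at most `κ`. -/
def ExConst (A : Type u) [NonUnitalCStarAlgebra A] (d : ℕ) (κ : ℝ) : Prop :=
  ∀ (B D : Type) [NonUnitalCStarAlgebra B] [NonUnitalCStarAlgebra D] (q : Hom B D),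
    ExConstAt A q d κ

/-- `A` is nuclear: the identity map is a point-norm limit of compositions `A → M_D(ℂ) → A` of
completely positive contractions. -/
def IsNuclear (A : Type u) [NonUnitalCStarAlgebra A] [PartialOrder A] [StarOrderedRing A] : Prop :=
  ∀ (F : Finset A) (ε : ℝ), 0 < ε →
    ∃ (D : ℕ) (φ : A →CP CStarMatrix (Fin D) (Fin D) ℂ) (ψ : CStarMatrix (Fin D) (Fin D) ℂ →CP A),
      (∀ a, ‖φ a‖ ≤ ‖a‖) ∧ (∀ x, ‖ψ x‖ ≤ ‖x‖) ∧ ∀ a ∈ F, ‖ψ (φ a) - a‖ < ε

/-- `O` is the Cuntz algebra `O_∞`: nonzero, unital, and generated by a sequence of isometries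
with mutually orthogonal ranges. -/
def IsOInfty (O : Type u) [CStarAlgebra O] : Prop :=
  Nontrivial O ∧ ∃ s : ℕ → O, (∀ i j, star (s i) * s j = if i = j then 1 else 0) ∧
    (StarAlgebra.adjoin ℂ (Set.range s)).topologicalClosure = ⊤

end Vale.Agent.N133
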