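import Vale.Agent.N133.Defs
import Vale.Agent.P133Z.TMain

/-!
# P133: the estimate on sums of involutions from a bound on the exactness constant
-/

namespace Vale.Agent.N133

open scoped TensorProduct InnerProductSpace ComplexOrder ENNReal
open Filter Topology Matrix Vale.Agent.P133.H832 Vale.Agent.P133Z

universe u

/-- the exactness constant in terms of the minimal norm on the algebraic tensor product -/
def ExC (A : Type u) [NonUnitalCStarAlgebra A] (d : ℕ) (κ : ℝ) : Prop :=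
  ∀ (B D : Type) [NonUnitalCStarAlgebra B] [NonUnitalCStarAlgebra D] (q : B →⋆ₙₐ[ℂ] D),
    Function.Surjective q → ∀ (a : Fin d → A) (b : Fin d → B) (ε : ℝ), 0 < ε →
      ∃ z ∈ kerTensor A q,
        minNorm (∑ i, a i ⊗ₜ[ℂ] b i - z) ≤ κ * minNorm (∑ i, a i ⊗ₜ[ℂ] q (b i)) + ε

theorem minLE_iff {A : Type u} {B ι : Type} [NonUnitalCStarAlgebra A] [NonUnitalCStarAlgebra B]
    [Fintype ι] (a : ι → A) (b : ι → B) {c : ℝ} (hc : 0 ≤ c) :
    N133.MinLE a b c ↔ minNorm (∑ i, a i ⊗ₜ[ℂ] b i) ≤ c := by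
  have key : ∀ (H : Type u) [NormedAddCommGroup H] [InnerProductSpace ℂ H] [CompleteSpace H]
      (L : Type) [NormedAddCommGroup L] [InnerProductSpace ℂ L] [CompleteSpace L]
      (π : A →⋆ₙₐ[ℂ] (H →L[ℂ] H)) (σ : B →⋆ₙₐ[ℂ] (L →L[ℂ] L)) (m : ℕ) (x : Fin m → H)
      (y : Fin m → L), tensorRep π σ (∑ i, a i ⊗ₜ[ℂ] b i) (∑ p, x p ⊗ₜ[ℂ] y p) =
        ∑ i, ∑ p, π (a i) (x p) ⊗ₜ[ℂ] σ (b i) (y p) := by
    intro H _ _ _ L _ _ _ π σ m x y
    rw [map_sum (tensorRep π σ), _root_.sum_apply]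
    refine Finset.sum_congr rfl fun i _ => ?_
    rw [tensorRep_tmul, map_sum]
    rfl
  constructor
  · intro h
    refine minNorm_le hc fun H _ _ _ L _ _ _ π σ =>
      ContinuousLinearMap.opNorm_le_bound _ hc fun ξ => ?_
    obtain ⟨m, x, y, rfl⟩ := TensorProduct.exists_sum_tmul_eq ξ
    rw [key]
    exact h H L π σ m x y
  · intro h H _ _ _ L _ _ _ π σ m x y
    rw [← key]
    exact ((tensorRep π σ _).le_opNorm _).trans
      (mul_le_mul_of_nonneg_right ((le_minNorm π σ _).trans h) (norm_nonneg _))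

theorem ExConst.exC {A : Type u} [NonUnitalCStarAlgebra A] {d : ℕ} {κ : ℝ} (hκ : 0 ≤ κ)
    (h : ExConst A d κ) : ExC A d κ := by
  intro B D _ _ q hq a b ε hε
  have h0 := minNorm_nonneg (∑ i, a i ⊗ₜ[ℂ] q (b i))
  obtain ⟨m, a', b', h1, h2⟩ := h B D q hq a b _ ε h0 hε ((minLE_iff _ _ h0).2 le_rfl)
  refine ⟨-∑ j, a' j ⊗ₜ[ℂ] b' j, Submodule.neg_mem _ (Submodule.sum_mem _ fun j _ =>
    Submodule.subset_span ⟨a' j, b' j, h1 j, rfl⟩), ?_⟩
  have h3 := (minLE_iff _ _ (by positivity)).1 h2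
  rw [Fintype.sum_sum_type] at h3
  rw [sub_neg_eq_add]
  exact h3

theorem ExConst.mono {A : Type u} [NonUnitalCStarAlgebra A] {d : ℕ} {κ κ' : ℝ}
    (h : ExConst A d κ) (hκ : κ ≤ κ') : ExConst A d κ' := by
  intro B D _ _ q hq a b c ε hc hε hab
  obtain ⟨m, a', b', h1, h2⟩ := h B D q hq a b c ε hc hε hab
  refine ⟨m, a', b', h1, fun H _ _ _ L _ _ _ π σ k x y => (h2 H L π σ k x y).trans ?_⟩
  gcongr

theorem exconst_main {A : Type u} [NonUnitalCStarAlgebra A] [PartialOrder A] [StarOrderedRing A]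
    {d : ℕ} {κ : ℝ} (hκ : 0 ≤ κ) (hA : ExC A d κ) {Λ : Type} (F : Filter Λ) {I : Λ → Type}
    [∀ l, Fintype (I l)] [∀ l, DecidableEq (I l)] (y : Fin d → A)
    (m : Fin d → ∀ l, I l → I l → ℂ)
    {R : ℝ} (hR0 : 0 ≤ R) (hR : ∀ t l, Bd (m t l) (R ^ 2)) {c : ℝ} (hc : 0 ≤ c)
    (h : ∀ (H : Type u) [NormedAddCommGroup H] [InnerProductSpace ℂ H] [CompleteSpace H]
      (π : A →⋆ₙₐ[ℂ] (H →L[ℂ] H)) (D : ℕ) (e : Fin D → H), Orthonormal ℂ e → ∀ᶠ l in F,
        SF (fun p q : I l × Fin D => ∑ t, ⟪e p.2, π (y t) (e q.2)⟫_ℂ * m t l p.1 q.1) (c ^ 2))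
    {ε : ℝ} (hε : 0 < ε) :
    ∀ᶠ l in F, Bd (fun p q => ∑ t, m t l p q • y t) ((κ * c + ε) ^ 2) := by
  obtain ⟨B, C, i0, i1, q, ev, hq, hk, hmk⟩ :=
    exists_prod (fun l => EuclideanSpace ℂ (I l) →L[ℂ] EuclideanSpace ℂ (I l)) F
  choose b _ hb using fun t => hmk
    (fun l => toEuclideanCLM (n := I l) (𝕜 := ℂ) (Matrix.of (m t l))) R hR0
    fun l => norm_le_of_bd hR0 (hR t l)
  have h1 : minNorm (∑ t, y t ⊗ₜ[ℂ] q (b t)) ≤ c := by
    refine minNorm_le hc fun H _ _ _ K _ _ _ π σ => ?_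
    refine upper π σ y _ hc fun D e he η => ?_
    have h2 := quot_bound q ev (fun b hb => (hk b).2 hb) hmk σ
      (M := fun a a' => ∑ t, ⟪e a, π (y t) (e a')⟫_ℂ • b t) (fun l a a' => by
        simp only [map_sum, map_smul, hb, blk]
        simp only [← map_smul, ← map_sum]
        congr 1
        ext p p'
        simp only [Matrix.sum_apply, Matrix.smul_apply, Matrix.of_apply, smul_eq_mul]) hc
        (h H π D e he) η
    simp only [map_sum, map_smul, _root_.sum_apply, _root_.smul_apply] at h2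
    exact h2
  obtain ⟨z, hz, hzl⟩ := hA B C q hq y b (ε / 2) (half_pos hε)
  have hzl' : minNorm (∑ t, y t ⊗ₜ[ℂ] b t - z) ≤ κ * c + ε / 2 :=
    hzl.trans (add_le_add (mul_le_mul_of_nonneg_left h1 hκ) le_rfl)
  have h2 : ∀ δ > 0, ∀ᶠ l in F, ∀ f : A →ₚ[ℂ] ℂ,
      ‖tensorRep f.gnsNonUnitalStarAlgHom (ev l) z‖ ≤ δ := by
    clear hzl hzl'
    induction hz using Submodule.span_induction with
    | mem w hw =>
      obtain ⟨a, b', hb', rfl⟩ := hw
      intro δ hδ
      have e1 : Tendsto (fun l => ‖a‖ * ‖ev l b'‖) F (𝓝 0) := by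
        simpa using Tendsto.const_mul ‖a‖ ((hk b').1 hb')
      filter_upwards [e1.eventually (gt_mem_nhds hδ)] with l hl f
      exact (norm_tensorRep_tmul _ _ _ _).trans hl.le
    | zero =>
      refine fun δ hδ => Eventually.of_forall fun l f => ?_
      rw [map_zero, ContinuousLinearMap.opNorm_zero]
      exact hδ.le
    | add w w' _ _ ih ih' =>
      intro δ hδ
      filter_upwards [ih _ (half_pos hδ), ih' _ (half_pos hδ)] with l hl hl' f
      rw [map_add]
      exact (ContinuousLinearMap.opNorm_add_le _ _).trans (by linarith [hl f, hl' f])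
    | smul s w _ ih =>
      intro δ hδ
      filter_upwards [ih (δ / (‖s‖ + 1)) (by positivity)] with l hl f
      rw [map_smul]
      refine (ContinuousLinearMap.opNorm_smul_le _ _).trans ?_
      calc _ ≤ (‖s‖ + 1) * (δ / (‖s‖ + 1)) :=
            mul_le_mul (by linarith) (hl f) (ContinuousLinearMap.opNorm_nonneg _) (by positivity)
        _ = δ := by field_simp
  filter_upwards [h2 _ (half_pos hε)] with l hl
  have h3 := lower (ev l) (∑ t, y t ⊗ₜ[ℂ] b t) (c := κ * c + ε) fun f => by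
    rw [← sub_add_cancel (∑ t, y t ⊗ₜ[ℂ] b t) z, map_add]
    exact (ContinuousLinearMap.opNorm_add_le _ _).trans
      (by linarith [hl f, le_minNorm f.gnsNonUnitalStarAlgHom (ev l) (∑ t, y t ⊗ₜ[ℂ] b t - z)])
  convert h3 using 3 with p p'
  simp only [map_sum, slice_tmul]
  refine Finset.sum_congr rfl fun t _ => ?_
  congr 1
  show _ = ev l (b t) (EuclideanSpace.single p' 1) p
  rw [hb]
  show _ = (Matrix.of (m t l) *ᵥ (Pi.single p' 1)) p
  simp

/-- the estimate for `r` self-adjoint `n × n` matrices over `A`, with the bound `K r M` -/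
def SmallAt (A : Type*) [NonUnitalCStarAlgebra A] [PartialOrder A] (n r : ℕ) (K : ℝ) : Prop :=
  ∀ (y : Fin r → Fin n → Fin n → A) (M : ℝ), 0 < M →
    (∀ i j j', star (y i j j') = y i j' j) → (∀ i j j', ‖y i j j'‖ ≤ M) →
    ∃ (H : Type) (_ : Fintype H) (_ : DecidableEq H) (_ : Nonempty H) (τ : Fin r → H → H)
      (f : H → H → ℂ), (∀ i, Function.Involutive (τ i)) ∧ SF f 1 ∧
      (Fintype.card H : ℝ) / 2 ≤ ∑ p, ∑ q, ‖f p q‖ ^ 2 ∧
      Bd (fun (p q : H × Fin n) => ∑ i, f p.1 (τ i q.1) • y i p.2 q.2) ((K * r * M) ^ 2)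

theorem SmallAt.mono {A : Type*} [NonUnitalCStarAlgebra A] [PartialOrder A] [StarOrderedRing A]
    {n r : ℕ} {K K' : ℝ} (h : SmallAt A n r K) (h0 : 0 ≤ K) (hK : K ≤ K') : SmallAt A n r K' := by
  intro y M hM hys hy
  obtain ⟨H, i1, i2, i3, τ, f, h1, h2, h3, h4⟩ := h y M hM hys hy
  exact ⟨H, i1, i2, i3, τ, f, h1, h2, h3, h4.mono (by gcongr)⟩

theorem smallAt_of {A : Type u} [NonUnitalCStarAlgebra A] [PartialOrder A] [StarOrderedRing A]
    {r : ℕ} (hr : 1 ≤ r) {c : ℝ} (hc0 : 0 < c) (hA : ExConst A r (c * √r)) (n : ℕ) :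
    SmallAt A n r (4 * c * (n + 1) ^ 2) := by
  classical
  intro y M hM hys hy
  have hr0 : (0 : ℝ) < r := by exact_mod_cast hr
  obtain ⟨N, hN⟩ : ∃ N : ℝ, N = (n + 1) * M := ⟨_, rfl⟩
  have hN0 : 0 < N := by rw [hN]; positivity
  have h0 := fun l : Finset (Tup n r N) => scalar_multi hr (S := l)
    (D := fun s => Fin n × Fin s.1.1) (Y := fun s => s.1.2.1) (fun s => s.1.2.2.1) hN0
    fun s => s.1.2.2.2
  choose H i1 i2 i3 τ f h1 h2 h3 h4 using h0
  have hc : (0 : ℝ) ≤ 8 * r * N ^ 2 := by positivity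
  have key : ∀ j j' : Fin n, ∀ᶠ l in (atTop : Filter (Finset (Tup n r N))),
      Bd (fun p q : H l => ∑ t, f l p (τ l t q) • y t j j')
        ((c * √r * √(8 * r * N ^ 2) + c * r * N) ^ 2) := fun j j' =>
    exconst_main (by positivity) (hA.exC (by positivity)) (atTop : Filter (Finset (Tup n r N))) (I := H)
      (fun t => y t j j') (fun t l p q => f l p (τ l t q)) zero_le_one
      (fun t l => by simpa only [one_pow] using ((h2 l).perm (h1 l t).injective).bd)
      (Real.sqrt_nonneg (8 * r * N ^ 2)) (fun K _ _ _ π D e he => by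
        let s : Tup n r N := ⟨D, fun i => Matrix.of fun p q => ⟪e p.2, π (y i p.1 q.1) (e q.2)⟫_ℂ,
          fun i => by
            ext p q
            simp only [Matrix.star_apply, Matrix.of_apply]
            rw [← hys i q.1 p.1, map_star, ContinuousLinearMap.star_eq_adjoint,
              ContinuousLinearMap.adjoint_inner_right]
            exact inner_conj_symm _ _,
          fun i => by
            have e1 := Bd.blocks (X := fun j j' a b => ⟪e a, π (y i j j') (e b)⟫_ℂ) fun j j' =>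
              bd_inner he _ ((NonUnitalStarAlgHom.norm_apply_le π _).trans (hy i j j'))
            refine e1.mono ?_
            rw [Fintype.card_fin, hN, mul_pow]
            gcongr
            linarith⟩
        filter_upwards [eventually_ge_atTop ({s} : Finset (Tup n r N))] with l hl
        have e1 : ∀ k : Fin n, Function.Injective
            fun p : H l × Fin D => ((p.1, (k, p.2)) : H l × Fin n × Fin D) := by
          rintro k ⟨p, a⟩ ⟨q, b⟩ h
          simpa using h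
        have e2 := (h4 l ⟨s, hl (Finset.mem_singleton_self s)⟩).bd.sub (e1 j) (e1 j')
        rw [Real.sq_sqrt hc]
        refine sf_of_bd hc ?_
        convert e2 using 3 with p q
        simp [s, mul_comm]) (by positivity)
  obtain ⟨l, hl⟩ := (eventually_all.2 fun j => eventually_all.2 fun j' => key j j').exists
  refine ⟨H l, i1 l, i2 l, i3 l, τ l, f l, h1 l, h2 l, h3 l, ?_⟩
  have e1 := (Bd.blocks (X := fun j j' (p q : H l) => ∑ t, f l p (τ l t q) • y t j j') hl).sub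
    (e := Prod.swap) Prod.swap_injective (e' := Prod.swap) Prod.swap_injective
  refine Bd.mono e1 ?_
  have e2 : √(r : ℝ) * √(8 * r * N ^ 2) ≤ 3 * r * N := by
    rw [← Real.sqrt_mul hr0.le, Real.sqrt_le_left (by positivity)]
    nlinarith [sq_nonneg (r * N)]
  have e3 : c * √r * √(8 * r * N ^ 2) + c * r * N ≤ 4 * c * r * N := by
    have := mul_le_mul_of_nonneg_left e2 hc0.le
    nlinarith
  rw [Fintype.card_fin, ← mul_pow]
  refine pow_le_pow_left₀ (by positivity) ?_ 2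
  calc _ ≤ ((n : ℝ) + 1) * (4 * c * r * N) :=
        mul_le_mul (by linarith) e3 (by positivity) (by positivity)
    _ = _ := by rw [hN]; ring

/-- C*-algebras which are exact in the sense of the kernel of `id ⊗ q` have constant `1` -/
theorem exConst_of_isExact {A : Type u} [NonUnitalCStarAlgebra A] (hA : IsExact A) (d : ℕ) :
    ExConst A d 1 := by
  intro B D _ _ q hq a b c ε hc hε hab
  have h0 : minNorm (LinearMap.lTensor A (q : B →ₗ[ℂ] D) (∑ i, a i ⊗ₜ[ℂ] b i)) ≤ c := by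
    simp only [map_sum (LinearMap.lTensor A (q : B →ₗ[ℂ] D)), LinearMap.lTensor_tmul]
    exact (minLE_iff _ _ hc).1 hab
  obtain ⟨z, hz, h⟩ := hA.dist_le q hq _ h0 hε
  have h1 : ∃ (m : ℕ) (a' : Fin m → A) (b' : Fin m → B), (∀ j, q (b' j) = 0) ∧
      ∑ j, a' j ⊗ₜ[ℂ] b' j = -z := by
    obtain ⟨m, f, g, hfg⟩ := Submodule.mem_span_set'.1 (Submodule.neg_mem _ hz)
    choose a' b' h1 h2 using fun j => (g j).2
    refine ⟨m, fun j => f j • a' j, b', h1, ?_⟩
    rw [← hfg]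
    exact Finset.sum_congr rfl fun j _ => by rw [h2 j, TensorProduct.smul_tmul']
  obtain ⟨m, a', b', h1, h2⟩ := h1
  refine ⟨m, a', b', h1, (minLE_iff _ _ (by positivity)).2 ?_⟩
  rw [Fintype.sum_sum_type]
  simp only [Sum.elim_inl, Sum.elim_inr, h2, one_mul, ← sub_eq_add_neg]
  exact minNorm_le (by positivity) h

theorem Exact.isExact {A : Type u} [NonUnitalCStarAlgebra A] (hA : Exact A) : IsExact A := by
  intro B D _ _ q hq x hx hx0
  choose n a b hab using fun k => TensorProduct.exists_sum_tmul_eq (x k)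
  have h1 := hA B D q hq n a b (fun ε hε => by
    obtain ⟨N, hN⟩ := hx ε hε
    refine ⟨N, fun k hk l hl => (minLE_iff _ _ hε.le).2 ?_⟩
    rw [Fintype.sum_sum_type]
    simp only [Sum.elim_inl, Sum.elim_inr, TensorProduct.neg_tmul, Finset.sum_neg_distrib,
      ← hab, ← sub_eq_add_neg]
    exact (hN k l hk hl).le) (fun ε hε => by
    filter_upwards [hx0.eventually (gt_mem_nhds hε)] with k hk
    refine (minLE_iff _ _ hε.le).2 (le_of_eq_of_le ?_ hk.le)
    rw [hab k]
    simp only [idTensor, map_sum (LinearMap.lTensor A (q : B →ₗ[ℂ] D)), LinearMap.lTensor_tmul]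
    rfl)
  have h2 : ∀ k, ∃ z ∈ kerTensor A q, ∀ z' ∈ kerTensor A q,
      minNorm (x k - z) ≤ minNorm (x k - z') + 1 / ((k : ℝ) + 1) := by
    intro k
    have hb : BddBelow ((fun z => minNorm (x k - z)) '' (kerTensor A q : Set (A ⊗[ℂ] B))) :=
      ⟨0, by rintro _ ⟨z, -, rfl⟩; exact minNorm_nonneg _⟩
    obtain ⟨_, ⟨z, hz, rfl⟩, h⟩ := exists_lt_of_csInf_lt
      (s := (fun z => minNorm (x k - z)) '' (kerTensor A q : Set (A ⊗[ℂ] B)))
      ⟨_, 0, Submodule.zero_mem _, rfl⟩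
      (lt_add_of_pos_right _ (Nat.one_div_pos_of_nat (n := k)))
    exact ⟨z, hz, fun z' hz' => h.le.trans (add_le_add (csInf_le hb ⟨z', hz', rfl⟩) le_rfl)⟩
  choose z hz h3 using h2
  refine ⟨z, hz, Metric.tendsto_nhds.2 fun ε hε => ?_⟩
  filter_upwards [h1 (ε / 2) (half_pos hε), (tendsto_one_div_add_atTop_nhds_zero_nat
    (𝕜 := ℝ)).eventually (gt_mem_nhds (half_pos hε))] with k hk hk'
  obtain ⟨m, a', b', e1, e2⟩ := hk
  have e3 := (minLE_iff _ _ (half_pos hε).le).1 e2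
  rw [Fintype.sum_sum_type] at e3
  simp only [Sum.elim_inl, Sum.elim_inr, ← hab] at e3
  have e4 := h3 k (-∑ j, a' j ⊗ₜ[ℂ] b' j) (Submodule.neg_mem _ (Submodule.sum_mem _ fun j _ =>
    Submodule.subset_span ⟨a' j, b' j, e1 j, rfl⟩))
  rw [sub_neg_eq_add] at e4
  rw [dist_zero_right, Real.norm_of_nonneg (minNorm_nonneg _)]
  linarith

theorem exact_iff (A : Type u) [NonUnitalCStarAlgebra A] : Exact A ↔ ∀ d, ExConst A d 1 := by
  refine ⟨fun h => exConst_of_isExact h.isExact, fun h B D _ _ q hq n a b _ h0 ε hε => ?_⟩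
  filter_upwards [h0 (ε / 2) (half_pos hε)] with k hk
  simpa only [one_mul, add_halves] using
    h (n k) B D q hq (a k) (b k) (ε / 2) (ε / 2) (half_pos hε).le (half_pos hε) hk

end Vale.Agent.N133
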