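import Vale.Agent.N133.Main
import Vale.Agent.P133K90.Top
import Vale.Agent.P133O.Top

/-!
# P133: comparison in `C ⊗ 𝒦` and comparison by finite matrices
-/

namespace Vale.Agent.N133

open scoped TensorProduct
open Vale.Agent.P133.Statement Vale.Agent.P133F

universe u v w

section

variable {A : Type u} {K : Type v} {B : Type w} [NonUnitalCStarAlgebra A]
  [NonUnitalCStarAlgebra K] [NonUnitalCStarAlgebra B]

/-- the bilinear map -/
def IsTensor.lin {T : A → K → B} (h : IsTensor T) : A →ₗ[ℂ] K →ₗ[ℂ] B :=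
  LinearMap.mk₂ ℂ T h.add_left h.smul_left h.add_right h.smul_right

theorem IsTensor.injective {T : A → K → B} (h : IsTensor T) :
    Function.Injective (TensorProduct.lift h.lin) := by
  rw [injective_iff_map_eq_zero]
  intro x hx
  obtain ⟨m, a, k, rfl⟩ := TensorProduct.exists_sum_tmul_eq x
  rw [map_sum] at hx
  exact h.inj m a k hx

theorem IsTensor.denseRange {T : A → K → B} (h : IsTensor T) :
    DenseRange (TensorProduct.lift h.lin) := by
  refine Metric.denseRange_iff.2 fun b ε hε => ?_
  obtain ⟨m, a, k, hb⟩ := h.dense b ε hε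
  refine ⟨∑ i, a i ⊗ₜ[ℂ] k i, ?_⟩
  rw [map_sum, dist_comm, dist_eq_norm]
  exact hb

theorem isTensor_of (T : A →ₗ[ℂ] K →ₗ[ℂ] B)
    (h1 : ∀ a a' k k', T (a * a') (k * k') = T a k * T a' k')
    (h2 : ∀ a k, T (star a) (star k) = star (T a k))
    (h3 : Function.Injective (TensorProduct.lift T)) (h4 : DenseRange (TensorProduct.lift T)) :
    IsTensor fun a k => T a k where
  add_left a a' k := by rw [map_add, LinearMap.add_apply]
  add_right a k k' := map_add _ _ _
  smul_left c a k := by rw [map_smul, LinearMap.smul_apply]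
  smul_right c a k := map_smul _ _ _
  mul := h1
  star := h2
  inj n a k h := h3 (by rw [map_sum, map_zero]; exact h)
  dense b ε hε := by
    obtain ⟨x, hx⟩ := Metric.denseRange_iff.1 h4 b ε hε
    obtain ⟨m, a, k, rfl⟩ := TensorProduct.exists_sum_tmul_eq x
    rw [map_sum, dist_comm, dist_eq_norm] at hx
    exact ⟨m, a, k, hx⟩

end

theorem isCompacts_iff {K : Type} [NonUnitalCStarAlgebra K] (e : ℕ → ℕ → K) :
    IsCompacts e ↔ P133KS.IsCompacts e := by
  constructor
  · rintro ⟨H, _, _, _, b, ρ, h1, h2, h3⟩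
    let U := b.repr.conjStarAlgEquiv
    let ρ' : K →⋆ₙₐ[ℂ] (lp (fun _ : ℕ => ℂ) 2 →L[ℂ] lp (fun _ : ℕ => ℂ) 2) :=
      { toFun := fun k => U (ρ k)
        map_smul' := fun c k => (congrArg U (map_smul ρ c k)).trans (U.map_smul' c _)
        map_zero' := (congrArg U (map_zero ρ)).trans U.toRingEquiv.map_zero
        map_add' := fun k k' => (congrArg U (map_add ρ k k')).trans (U.map_add' _ _)
        map_mul' := fun k k' => (congrArg U (map_mul ρ k k')).trans (U.map_mul' _ _)
        map_star' := fun k => (congrArg U (map_star ρ k)).trans (U.map_star' _) }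
    refine ⟨ρ', U.injective.comp h1, fun S => ?_, fun i j x => ?_⟩
    · have e1 : IsCompactOperator S ↔ IsCompactOperator (U.symm S) := by
        constructor
        · intro hS
          exact (hS.comp_clm b.repr.toContinuousLinearEquiv.toContinuousLinearMap).clm_comp
            b.repr.symm.toContinuousLinearEquiv.toContinuousLinearMap
        · intro hS
          have e2 := (hS.comp_clm
            b.repr.symm.toContinuousLinearEquiv.toContinuousLinearMap).clm_comp
            b.repr.toContinuousLinearEquiv.toContinuousLinearMap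
          have e3 : (S : _ → _) = b.repr.toContinuousLinearEquiv.toContinuousLinearMap ∘
              (U.symm S ∘ b.repr.symm.toContinuousLinearEquiv.toContinuousLinearMap) := by
            funext x
            show S x = b.repr (b.repr.symm (S (b.repr (b.repr.symm x))))
            simp only [LinearIsometryEquiv.apply_symm_apply]
          rw [e3]
          exact e2
      rw [e1, h2]
      exact exists_congr fun k => ⟨fun h => (U.symm_apply_eq.1 h.symm).symm,
        fun h => (U.symm_apply_eq.2 h.symm).symm⟩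
    · show b.repr (ρ (e i j) (b.repr.symm x)) = _
      rw [h3, map_smul, b.repr_self, ← b.repr.inner_map_map, b.repr_self,
        LinearIsometryEquiv.apply_symm_apply]
  · rintro ⟨ρ, h1, h2, h3⟩
    let b : HilbertBasis ℕ ℂ (lp (fun _ : ℕ => ℂ) 2) := default
    have hb : ∀ i, b i = lp.single 2 i 1 := fun i => (b.repr_symm_single i).symm
    exact ⟨_, inferInstance, inferInstance, inferInstance, b, ρ, h1, h2, fun i j x => by
      rw [hb, hb]; exact h3 i j x⟩

section

variable {K : Type} [NonUnitalCStarAlgebra K] {e : ℕ → ℕ → K} {C : Type u}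
  [NonUnitalCStarAlgebra C] [PartialOrder C] [StarOrderedRing C] {B : Type v}
  [NonUnitalCStarAlgebra B] {T : C → K → B}

omit [PartialOrder C] [StarOrderedRing C] in
theorem corner_diag (hT : IsTensor T) (n : ℕ) (h : C) :
    P133KS.corner hT.lin e (Matrix.diagonal fun _ : Fin n => h) = amp T e n h := by
  rw [amp, ← Fin.sum_univ_eq_sum_range (fun i => T h (e i i)) n, P133KS.corner]
  refine Finset.sum_congr rfl fun i _ => ?_
  rw [Finset.sum_eq_single i]
  · rw [Matrix.diagonal_apply_eq]
    rfl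
  · intro j _ hj
    rw [Matrix.diagonal_apply_ne _ hj.symm, map_zero, LinearMap.zero_apply]
  · intro hi
    exact absurd (Finset.mem_univ i) hi

omit [PartialOrder C] [StarOrderedRing C] in
theorem double_diag (n : ℕ) (h : C) : P133KS.double (Matrix.diagonal fun _ : Fin n => h) =
    Matrix.diagonal fun _ : Fin (n + n) => h := by
  rw [P133KS.double, Matrix.fromBlocks_diagonal, Matrix.reindex_apply,
    Matrix.submatrix_diagonal_equiv]
  congr 1
  funext i
  simp only [Function.comp_apply]
  rcases finSumFinEquiv.symm i with j | j <;> rfl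

theorem bridge (he : IsCompacts e) (hT : IsTensor T) (n : ℕ) :
    AmpInf T e n ↔ ∀ h : C, 0 ≤ h → ProperlyInfiniteMat (diagN n h) := by
  obtain ⟨φ, hm, hs, hu⟩ := ((isCompacts_iff e).1 he).exists_equiv
  have hT' : P133K.IsStabilization (hT.lin.compl₂ φ.symm.toLinearMap) := by
    refine ⟨fun a a' k k' => ?_, fun a k => ?_, ?_, ?_⟩
    · refine (congrArg (T (a * a')) (φ.injective ?_)).trans
        (hT.mul a a' (φ.symm k) (φ.symm k'))
      rw [hm]
      simp
    · refine (congrArg (T (star a)) (φ.injective ?_)).trans (hT.star a (φ.symm k))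
      rw [hs]
      simp
    · rw [P133KS.lift_compl]
      exact hT.injective.comp (φ.symm.lTensor C).injective
    · rw [P133KS.lift_compl]
      exact hT.denseRange.mono (by rw [(φ.symm.lTensor C).surjective.range_comp])
  have hc : ∀ {n : ℕ} (M : Matrix (Fin n) (Fin n) C),
      P133K.corner (hT.lin.compl₂ φ.symm.toLinearMap) M = P133KS.corner hT.lin e M := fun M =>
    Finset.sum_congr rfl fun i _ => Finset.sum_congr rfl fun j _ =>
      congrArg (T (M i j)) (φ.symm_apply_eq.2 (hu i j).symm)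
  refine forall₂_congr fun h _ => Iff.trans ?_ (hT'.properlyInf_iff _)
  rw [P133K.ProperlyInf, hc, hc, corner_diag,
    show P133K.double (Matrix.diagonal fun _ : Fin n => h) = _ from double_diag n h, corner_diag]
  exact Iff.rfl

theorem bridge_wpi (he : IsCompacts e) (hT : IsTensor T) :
    (∃ n, 1 ≤ n ∧ AmpInf T e n) ↔ WeaklyPurelyInfinite C :=
  exists_congr fun n => and_congr_right fun _ => bridge he hT n

theorem bridge_pi (he : IsCompacts e) (hT : IsTensor T) : AmpInf T e 1 ↔ PurelyInfinite C := by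
  obtain ⟨B', _, T', hT'⟩ := P133K.exists_stabilization C
  rw [bridge he hT, ← hT'.pi_iff]
  refine forall₂_congr fun h _ => ?_
  rw [hT'.properlyInf_iff]
  have e1 : diagN 1 h = CStarMatrix.ofMatrix !![h] := by
    ext i j
    rw [Subsingleton.elim i 0, Subsingleton.elim j 0]
    rfl
  rw [e1]

theorem three (he : IsCompacts e) (hT : IsTensor T) :
    (AmpInf T e 1 ↔ SPI C) ∧ (Exact C → ((∃ n, 1 ≤ n ∧ AmpInf T e n) ↔ SPI C)) ∧
      (TopologicalSpace.SeparableSpace C → IsNuclear C →
        ∀ (O D : Type u) [CStarAlgebra O] [NonUnitalCStarAlgebra D] (S : C → O → D),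
          IsOInfty O → IsTensor S → ((∃ n, 1 ≤ n ∧ AmpInf T e n) ↔ Nonempty (C ≃⋆ₐ[ℂ] D))) := by
  obtain ⟨h1, h2, -, -, -, -, -, h8⟩ := P133O.final_of.{u, u} P133O.rowEX P133O.rowUNI
    P133O.rowCEN P133O.rowINT P133O.rowCONV
  rw [bridge_pi he hT, bridge_wpi he hT]
  exact ⟨h1 C, fun h => (h2 C h.isExact).2, fun _ h O D _ _ S hO hS =>
    (h8 C h O D hS.lin ⟨hO.1, hO.2⟩ ⟨hS.mul, hS.star, hS.injective, hS.denseRange⟩).1⟩

end

theorem growth {K : Type} [NonUnitalCStarAlgebra K] {e : ℕ → ℕ → K} (he : IsCompacts e) {n : ℕ}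
    (hn : 1 ≤ n) : ∃ c : ℝ, 0 < c ∧
      ∀ (C : Type u) [NonUnitalCStarAlgebra C] [PartialOrder C] [StarOrderedRing C] (B : Type v)
        [NonUnitalCStarAlgebra B] (T : C → K → B), IsTensor T → AmpInf T e n →
        ∀ d : ℕ, 1 ≤ d → ExConst C d (c * √d) → SPI C := by
  obtain ⟨c, hc, h⟩ := pi_of_exConst.{u} hn
  exact ⟨c, hc, fun C _ _ _ B _ T hT hC d hd hE => (Vale.Agent.P133.H681.pi_iff_spi C).1
    (h C ((bridge he hT n).1 hC) d hd hE)⟩

theorem exist :
    ∃ (K : Type) (_ : NonUnitalCStarAlgebra K) (e : ℕ → ℕ → K) (O : Type u) (_ : CStarAlgebra O),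
      IsCompacts e ∧ IsOInfty O ∧ ∀ (C : Type u) [NonUnitalCStarAlgebra C],
        (∃ (B : Type u) (_ : NonUnitalCStarAlgebra B) (T : C → K → B), IsTensor T) ∧
          ∃ (D : Type u) (_ : NonUnitalCStarAlgebra D) (S : C → O → D), IsTensor S := by
  obtain ⟨-, -, -, -, ⟨O, iO, hO⟩, -, h7, -⟩ := P133O.final_of.{u, u} P133O.rowEX P133O.rowUNI
    P133O.rowCEN P133O.rowINT P133O.rowCONV
  obtain ⟨K, iK, e, he⟩ := P133KS.exists_compacts
  refine ⟨K, iK, e, O, iO, (isCompacts_iff e).2 he, ⟨hO.1, hO.2⟩, fun C _ => ⟨?_, ?_⟩⟩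
  · let _ := CStarAlgebra.spectralOrder C
    have _ := CStarAlgebra.spectralOrderedRing C
    obtain ⟨B, iB, T, hT⟩ := ((P133KS.main.{u, u, u} C).2 K e he).1
    exact ⟨B, iB, _, isTensor_of T hT.map_mul hT.map_star hT.injective hT.dense⟩
  · obtain ⟨D, iD, S, hS⟩ := h7 C O
    exact ⟨D, iD, _, isTensor_of S hS.map_mul hS.map_star hS.injective hS.dense⟩

end Vale.Agent.N133
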